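import Vale.Agent.P011UHB.E6
import Vale.Agent.P011UK.Opi
import Vale.Agent.P011UG.Orb
import Vale.Agent.P011UD.Aut
import Vale.Agent.P011LD.H90

/-!
Roots which are orthogonal to a Levi subgroup.
-/

set_option autoImplicit false
set_option linter.all false

namespace Vale.Agent.P011UB6

open Matrix Vale.Agent.P011L Vale.Agent.P183CH Vale.Agent.P011U Vale.Agent.P011UHB
  Vale.Agent.P011UK Vale.Agent.P011UP Vale.Agent.P011LD
open Vale.Agent.P011UC (pa)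

theorem scale {K G : Type} [Field K] [Group G] {p m : K → G} {h : Kˣ →* G} {n : G}
    (s : S2 p m h n) (a : Kˣ) :
    S2 (fun u => p (a * u)) (fun u => m ((a⁻¹ : Kˣ) * u)) h (h a * n) := by
  have c : ∀ t t', h t * h t' = h t' * h t := fun t t' => by rw [← map_mul, mul_comm, map_mul]
  have hm : ∀ u, h a * m u * (h a)⁻¹ = m ((a⁻¹ : Kˣ) ^ 2 * u) := fun u => by
    have e := s.nh a⁻¹
    rw [inv_inv] at e
    rw [← neg_neg u, ← s.np, mul_neg, ← s.np, ← s.hp, ← e, map_inv]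
    group
  refine ⟨fun x y => by rw [mul_add, s.pa], fun t => ?_, fun t u => by
    rw [s.hp, mul_left_comm], fun t => ?_, fun u => ?_, fun u => ?_,
    s.inj.comp (mul_right_injective₀ (Units.ne_zero _))⟩
  · rw [← mul_assoc (h t), ← map_mul, ← s.sl, mul_comm t a, mul_inv, Units.val_mul, Units.val_mul,
      mul_neg]
  · calc _ = h a * (n * h t * n⁻¹) * (h a)⁻¹ := by group
      _ = _ := by rw [s.nh, c, mul_inv_cancel_right]
  · calc _ = h a * (n * p (a * u) * n⁻¹) * (h a)⁻¹ := by group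
      _ = _ := by
        rw [s.np, hm]
        exact congrArg m (by simp [sq, mul_assoc])
  · calc _ = h a * (n * m ((a⁻¹ : Kˣ) * u) * n⁻¹) * (h a)⁻¹ := by group
      _ = _ := by
        rw [s.nm, s.hp]
        exact congrArg p (by simp [sq, mul_assoc])

variable {R : RS} {K G : Type} [Field K] [Group G] {Γ : RG R K G} {β γ : R.Q}
  {J : Set (Fin R.r)}

/-- all roots have the same length -/
def Eq1 (R : RS) : Prop := ∀ γ ∈ R.Φ, ∀ β ∈ R.Φ, R.B γ γ = R.B β β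

theorem eq1 (hR : R.Ok) (h : ∀ i j, R.A i j = R.A j i) : Eq1 R := by
  have k : ∀ i j, R.B (R.α j) (R.α j) = R.B (R.α i) (R.α i) := fun i j =>
    hR.conn (fun j => R.B (R.α j) (R.α j) = R.B (R.α i) (R.α i)) i j rfl fun a b e c => by
      have h1 := hR.pr_B (R.α b) a
      have h2 := hR.pr_B (R.α a) b
      rw [RS.pr_α] at h1 h2
      rw [h, hR.B_comm (R.α a), ← h1] at h2
      exact (mul_left_cancel₀ c h2).trans e
  intro γ hγ β hβ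
  obtain ⟨w, hw, i, rfl⟩ := hR.exists_conj hγ
  obtain ⟨w', hw', j, rfl⟩ := hR.exists_conj hβ
  rw [hR.B_inv hw, hR.B_inv hw', k]

theorem exists_refl (hR : R.Ok) (hβ : β ∈ R.Φ) :
    ∃ r ∈ R.W, r β = -β ∧ ∀ γ, R.B γ β = 0 → r γ = γ := by
  obtain ⟨w, hw, i, rfl⟩ := hR.exists_conj hβ
  refine ⟨w * R.sE i * w⁻¹, mul_mem (mul_mem hw (RS.sE_mem_W i)) (inv_mem hw), ?_, fun γ e => ?_⟩
  · rw [RS.mul_app, RS.inv_app, hR.mul_sE_α]
  · have := hR.pr_B (w⁻¹ γ) i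
    rw [← hR.B_inv hw (w⁻¹ γ), RS.app_inv, e, mul_zero] at this
    rw [RS.mul_app, RS.mul_app, hR.sE_eq, (mul_eq_zero.1 this).resolve_right (hR.B_α_pos i).ne',
      zero_smul, sub_zero, RS.app_inv]

variable (Γ β) in
/-- the elements which act on the root subgroups of `β` and `-β` by a character -/
def Sc : Subgroup G where
  carrier := {g | ∃ χ : Kˣ, ∀ u, g * Γ.x β u * g⁻¹ = Γ.x β (χ * u) ∧
    g * Γ.x (-β) u * g⁻¹ = Γ.x (-β) ((χ⁻¹ : Kˣ) * u)}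
  one_mem' := ⟨1, by simp⟩
  mul_mem' := fun {a b} ⟨χ, h⟩ ⟨χ', h'⟩ => ⟨χ * χ', fun u => by
    rw [mul_inv, Units.val_mul, Units.val_mul, mul_assoc (_ : K), mul_assoc (_ : K), ← (h _).1,
      ← (h _).2, ← (h' _).1, ← (h' _).2]
    constructor <;> group⟩
  inv_mem' := fun {a} ⟨χ, h⟩ => ⟨χ⁻¹, fun u => by
    have h1 := (h ((χ⁻¹ : Kˣ) * u)).1
    have h2 := (h (χ * u)).2
    rw [Units.mul_inv_cancel_left] at h1
    rw [Units.inv_mul_cancel_left] at h2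
    rw [inv_inv χ, ← h1, ← h2]
    constructor <;> group⟩

section

variable (hΓ : Γ.Ok) (hR : R.Ok)
include hΓ hR

theorem flip (hγ : γ ∈ R.Φ) (hβ : β ∈ R.Φ) (h : R.B γ β = 0)
    (H : ∀ t u, Commute (Γ.x γ t) (Γ.x β u)) (t u : K) : Commute (Γ.x γ t) (Γ.x (-β) u) := by
  obtain ⟨r, hr, h1, h2⟩ := exists_refl hR hβ
  obtain ⟨n, -, hn⟩ := RG.exists_rep' (Γ := Γ) hr
  have := comm_conj hΓ hR hn hγ hβ H t u
  rwa [h1, h2 γ h] at this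

theorem comm_perp (hE : Eq1 R) (hγ : γ ∈ R.Φ) (hβ : β ∈ R.Φ) (h : R.B γ β = 0) (t u : K) :
    Commute (Γ.x γ t) (Γ.x β u) := by
  have k1 : ∀ γ ∈ R.Φ, ∀ β ∈ R.Φ, R.B γ β = 0 → 0 ≤ γ → 0 ≤ β → ∀ t u,
      Commute (Γ.x γ t) (Γ.x β u) := fun γ hγ β hβ h p q t u => by
    refine commutatorElement_eq_one_iff_commute.1 (Subgroup.mem_bot.1
      ((RG.X_le ?_ : _ ≤ ⊥) (hΓ.comm _ hγ _ hβ p q t u)))
    rintro _ ⟨a, b, ha, hb, rfl⟩ m
    have e := hE _ m _ hβ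
    rw [← natCast_zsmul γ, ← natCast_zsmul β, hR.B_add, hR.B_smul, hR.B_smul, hR.B_comm γ,
      hR.B_comm β, hR.B_add, hR.B_add, hR.B_smul, hR.B_smul, hR.B_smul, hR.B_smul, hR.B_comm β γ,
      h, hE _ hγ _ hβ] at e
    have b0 := hR.B_pos (hR.sign _ hβ).1
    have e' : (a : ℤ) * a + b * b = 1 := mul_right_cancel₀ b0.ne' (by linarith)
    have a1 : (1 : ℤ) ≤ a := by exact_mod_cast ha
    have b1 : (1 : ℤ) ≤ b := by exact_mod_cast hb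
    nlinarith
  have k2 : ∀ γ ∈ R.Φ, ∀ β ∈ R.Φ, R.B γ β = 0 → 0 ≤ γ → ∀ t u,
      Commute (Γ.x γ t) (Γ.x β u) := fun γ hγ β hβ h p => by
    rcases (hR.sign β hβ).2 with q | q
    · exact k1 γ hγ β hβ h p q
    · have h' : R.B γ (-β) = 0 := by rw [hR.B_comm, hR.B_neg, hR.B_comm, h, neg_zero]
      simpa using flip hΓ hR hγ (hR.neg_mem hβ) h'
        (k1 γ hγ _ (hR.neg_mem hβ) h' p (neg_nonneg.2 q))
  rcases (hR.sign γ hγ).2 with p | p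
  · exact k2 γ hγ β hβ h p t u
  · have h' : R.B (-γ) β = 0 := by rw [hR.B_neg, h, neg_zero]
    simpa using (flip hΓ hR hβ (hR.neg_mem hγ) (by rw [hR.B_comm, h'])
      (fun t u => (k2 _ (hR.neg_mem hγ) β hβ h' (neg_nonneg.2 p) u t).symm) u t).symm

theorem GJ_le (hE : Eq1 R) (hβ : β ∈ R.Φ) (h : ∀ j ∈ J, R.pr β j = 0) : Γ.GJ J ≤ Sc Γ β := by
  refine sup_le (RG.X_le fun γ hJ hγ t => ⟨1, fun u => ?_⟩) fun t ht =>
    ⟨_, fun u => ⟨hΓ.tx ht hβ u, by rw [hΓ.tx ht (hR.neg_mem hβ), hΓ.chi_neg]⟩⟩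
  have e : R.B γ β = 0 := by
    rw [hR.B_sum]
    refine Finset.sum_eq_zero fun j _ => ?_
    by_cases c : j ∈ J
    · have := hR.pr_B β j
      rw [h j c, zero_mul, hR.B_comm] at this
      exact mul_eq_zero_of_right _ (by omega)
    · rw [hJ j c, zero_mul]
  have k := comm_perp hΓ hR hE hγ hβ e
  simp [(k t u).eq, (flip hΓ hR hγ hβ e k t u).eq]

theorem lg_neg {w : R.Aut} (hw : R.Lg Set.univ w) (h : ∀ π, Dg R π → pm π β = β) : w β = -β := by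
  obtain ⟨s, hs, e⟩ := P011UG.star hR hΓ hw
  rw [RS.aut_ext (w := w) (w' := LinearEquiv.neg ℤ * pa R s) fun j => by
    rw [e, ← pm_α]; rfl]
  exact congrArg Neg.neg (h s hs)

variable {k : Type} [Field k] [Algebra k K] {A : (K ≃ₐ[k] K) →* MulAut G}
  {ε : (K ≃ₐ[k] K) →* ℤˣ} {θ : K ≃ₐ[k] K}

theorem st_root [Algebra.IsAlgebraic k K] (hE : Eq1 R) (hβ : β ∈ R.Φ) (h : ∀ j ∈ J, R.pr β j = 0)
    (hp : ∀ π, Dg R π → pm π β = β) (hθ : ε θ = -1)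
    (h1 : ∀ σ, ε σ = 1 → ∃ g ∈ Γ.GJ J, ∃ c, Std Γ (A σ) σ g c 1)
    (h2 : ∃ g ∈ Γ.GJ J, ∃ n w c π, Γ.Rep n w ∧ R.Lg Set.univ w ∧ Std Γ (A θ) θ (g * n) c π)
    (hc : Op ⊤ fun τ => A τ (Γ.x β 1) = Γ.x β 1) : ∃ a : Kˣ, ∀ h n,
      S2 (fun u => Γ.x β (a * u)) (fun u => Γ.x (-β) ((a⁻¹ : Kˣ) * u)) h n →
      ∃ c, St A ε (fun u => Γ.x β (a * u)) (fun u => Γ.x (-β) ((a⁻¹ : Kˣ) * u)) c := by
  have k1 : ∀ σ, ε σ = 1 → ∃ d : Kˣ, ∀ u, A σ (Γ.x β u) = Γ.x β (d * σ u) ∧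
      A σ (Γ.x (-β) u) = Γ.x (-β) ((d⁻¹ : Kˣ) * σ u) := fun σ e => by
    obtain ⟨g, hg, c, s⟩ := h1 σ e
    obtain ⟨d, hd⟩ := std_x hΓ s hR β hβ
    obtain ⟨χ, hχ⟩ := GJ_le hΓ hR hE hβ h hg
    rw [hp 1 s.1] at hd
    exact ⟨χ * d, fun u => by
      rw [(hd u).1, (hd u).2, (hχ _).1, (hχ _).2, mul_inv, Units.val_mul, Units.val_mul,
        mul_assoc, mul_assoc]
      exact ⟨rfl, rfl⟩⟩
  obtain ⟨d', k2⟩ : ∃ d : Kˣ, ∀ u, A θ (Γ.x β u) = Γ.x (-β) (d * θ u) ∧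
      A θ (Γ.x (-β) u) = Γ.x β ((d⁻¹ : Kˣ) * θ u) := by
    obtain ⟨g, hg, n, w, c, π, hn, hw, s⟩ := h2
    obtain ⟨d, hd⟩ := std_x hΓ s hR β hβ
    obtain ⟨χ, hχ⟩ := GJ_le hΓ hR hE hβ h hg
    obtain ⟨e, he⟩ := hΓ.rep_conj hR hn hβ
    rw [hp π s.1] at hd
    rw [lg_neg hΓ hR hw hp, neg_neg] at he
    refine ⟨χ⁻¹ * (e * d), fun u => ?_⟩
    rw [mul_inv, mul_inv, inv_inv]
    simp only [Units.val_mul, mul_assoc (_ : K)]
    rw [(hd u).1, (hd u).2, ← (hχ _).1, ← (hχ _).2, ← (he _).1, ← (he _).2]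
    constructor <;> group
  choose! d hd using k1
  obtain ⟨S, hS⟩ := hc
  obtain ⟨a, a0, ha⟩ := h90_one (Γ := ε.ker) (fun σ => d σ) (fun σ s τ t => hΓ.x_inj hR hβ (by
    have := (hd _ (mul_mem s t) 1).1
    rw [map_mul A, MulAut.mul_apply, (hd τ t 1).1, (hd σ s _).1] at this
    simpa using this.symm)) ⟨S, fun σ s e => hΓ.x_inj hR hβ (by
      simpa using (hd σ s 1).1.symm.trans (hS σ trivial e))⟩
  lift a to Kˣ using Ne.isUnit a0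
  have k3 : ∀ σ u, ε σ = 1 → A σ (Γ.x β (a * u)) = Γ.x β (a * σ u) ∧
      A σ (Γ.x (-β) ((a⁻¹ : Kˣ) * u)) = Γ.x (-β) ((a⁻¹ : Kˣ) * σ u) := fun σ u e => by
    rw [(hd σ e _).1, (hd σ e _).2, map_mul, map_mul, ← mul_assoc, ← mul_assoc, ha σ e,
      Units.val_inv_eq_inv_val, Units.val_inv_eq_inv_val, map_inv₀, ← mul_inv, ha σ e]
    exact ⟨rfl, rfl⟩
  refine ⟨a, fun h n s => st_of s ⟨θ, hθ⟩ k3 fun σ e => ⟨a * (d' * θ a), mul_ne_zero a0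
    (mul_ne_zero d'.ne_zero ((map_ne_zero θ).2 a0)), fun u => ?_⟩⟩
  obtain ⟨ρ, rfl⟩ : ∃ ρ, σ = θ * ρ := ⟨θ⁻¹ * σ, by group⟩
  have r : ε ρ = 1 := by simpa [hθ] using e
  simp only [map_mul A, MulAut.mul_apply, k3 ρ u r, k2]
  constructor
  · exact congrArg _ (by simp [mul_assoc])
  · refine congrArg _ ?_
    simp only [map_mul, Units.val_inv_eq_inv_val, map_inv₀, AlgEquiv.mul_apply, mul_inv]
    field_simp

theorem sp_perp [Algebra.IsAlgebraic k K] (hE : Eq1 R) {t : Fin R.r} (hβ : β ∈ R.Φ)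
    (hb : R.pr β t = -1) (h : ∀ j ∈ J, R.pr β j = 0 ∧ R.A t j = 0)
    (hp : ∀ π, Dg R π → π t = t ∧ pm π β = β) (hθ : ε θ = -1)
    (h1 : ∀ σ, ε σ = 1 → ∃ g ∈ Γ.GJ J, ∃ c, Std Γ (A σ) σ g c 1)
    (h2 : ∃ g ∈ Γ.GJ J, ∃ n w c π, Γ.Rep n w ∧ R.Lg Set.univ w ∧ Std Γ (A θ) θ (g * n) c π)
    (hc : ∀ x, Op ⊤ fun τ => A τ x = x) (H : H3 ε) {u v : K} (g : Cj ε u v) (ne : u ≠ v) :
    ∃ i, Sp A (Γ.h i) := by
  obtain ⟨a, ha⟩ := st_root hΓ hR hE (hR.simple t) (fun j e => (RS.pr_α _ _ _).trans (h j e).2)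
    (fun π e => by rw [pm_α, (hp π e).1]) hθ h1 h2 (hc _)
  obtain ⟨a', ha'⟩ := st_root hΓ hR hE hβ (fun j e => (h j e).1) (fun π e => (hp π e).2) hθ h1 h2
    (hc _)
  obtain ⟨w, hw, i, rfl⟩ := hR.exists_conj hβ
  obtain ⟨n, -, hn⟩ := RG.exists_rep' (Γ := Γ) hw
  obtain ⟨e, he⟩ := hΓ.rep_conj hR hn (hR.simple i)
  have s := scale (s2 hΓ hR t) a
  have s' := scale ((s2 hΓ hR i).map (MulAut.conj n)) (e⁻¹ * a')
  simp only [MulAut.conj_apply, he, mul_inv, inv_inv, Units.val_mul, mul_assoc (_ : K),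
    Units.mul_inv_cancel_left, Units.inv_mul_cancel_left] at s'
  obtain ⟨c, b⟩ := ha _ _ s
  obtain ⟨c', b'⟩ := ha' _ _ s'
  rcases core H ⟨θ, hθ⟩ g ne b s b' s' (fun d z => by
      rw [hΓ.hx t d _ hβ, hb, _root_.zpow_neg_one, mul_left_comm]) (fun d z => by
      rw [hΓ.hx t d _ (hR.neg_mem hβ), RS.pr_neg, hb, neg_neg, _root_.zpow_one, mul_left_comm]) with
    q | ⟨y, q⟩
  · exact ⟨t, q⟩
  · exact ⟨i, y * n, fun σ t => by simpa [mul_assoc] using q σ t⟩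

end

theorem e6 (hR : R.Ok) {e : Fin R.r ≃ Fin 6} (he : Ty R CartanMatrix.E₆ e) : Eq1 R ∧
    ∃ t, ∃ β ∈ R.Φ, R.pr β t = -1 ∧ (∀ j ∈ J0 e, R.pr β j = 0 ∧ R.A t j = 0) ∧
      ∀ π, Dg R π → π t = t ∧ pm π β = β := by
  have pr : ∀ (v : Fin 6 → ℤ) j, R.pr (fun i => v (e i)) j = (v ᵥ* CartanMatrix.E₆) (e j) :=
    fun v j => by
      rw [RS.pr_eq]
      simp only [he _ _]
      exact e.sum_comp fun a => v a * CartanMatrix.E₆ a (e j)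
  have al : ∀ a, R.α (e.symm a) = fun i => (Pi.single a 1 : Fin 6 → ℤ) (e i) := fun a =>
    funext fun i => by simp [RS.α_apply, Pi.single_apply, Equiv.eq_symm_apply]
  have rt : ∀ l : List (Fin 6), (fun i => (l.foldr (fun a (v : Fin 6 → ℤ) =>
      v - (v ᵥ* CartanMatrix.E₆) a • Pi.single a 1) (Pi.single 1 1)) (e i)) ∈ R.Φ := fun l => by
    induction l with
    | nil => exact al 1 ▸ hR.simple _
    | cons a l ih =>
      have := hR.refl (e.symm a) _ ih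
      rwa [RS.s, pr, al, e.apply_symm_apply] at this
  have m := rt [3, 4, 2, 3, 5, 0, 4, 2, 3]
  rw [show List.foldr (fun a (v : Fin 6 → ℤ) => v - (v ᵥ* CartanMatrix.E₆) a • Pi.single a 1)
    (Pi.single 1 1) [3, 4, 2, 3, 5, 0, 4, 2, 3] = ![1, 1, 2, 3, 2, 1] by decide +kernel] at m
  refine ⟨eq1 hR fun i j => ?_, e.symm 1, _, m, ?_, fun j c => ?_, fun π c => ?_⟩
  · rw [he, he]
    generalize e i = a, e j = b
    fin_cases a <;> fin_cases b <;> rfl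
  · rw [pr, e.apply_symm_apply]
    decide
  · rw [pr, he, e.apply_symm_apply]
    obtain ⟨c1, c2⟩ := c
    generalize e j = a at c1 c2
    revert a
    decide
  · have v := (he.au c).vec (by rw [CartanMatrix.E₆_det]; decide) ![16, 22, 30, 42, 30, 16]
      (by decide)
    have f : ∀ a b : Fin 6, (![16, 22, 30, 42, 30, 16] : Fin 6 → ℤ) b = ![16, 22, 30, 42, 30, 16] a →
        (![1, 1, 2, 3, 2, 1] : Fin 6 → ℤ) b = ![1, 1, 2, 3, 2, 1] a ∧ (a = 1 → b = 1) := by decide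
    refine ⟨e.injective ?_, funext fun j => ?_⟩
    · simpa using (f _ _ (v 1)).2 rfl
    · simpa [pm] using (f _ _ (v (e (π.symm j)))).1.symm

end Vale.Agent.P011UB6
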