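import Vale.Agent.P011UB6.Abs
import Vale.Agent.P011UY.Ari
import Vale.Agent.P011UQ.Tz
import Vale.Agent.P011UCX.Kit

/-!
OP6: the quadratic step with an anisotropic kernel, end.
-/

set_option autoImplicit false
set_option linter.all false

namespace Vale.Agent.P011UB6

open Matrix Vale.Agent.P011L Vale.Agent.P183CH Vale.Agent.P011U Vale.Agent.P011UHB
  Vale.Agent.P011UK

variable {k K : Type} [Field k] [Field K] [Algebra k K] [IsSepClosure k K]
  {L : IntermediateField k K} {ε : (K ≃ₐ[k] K) →* ℤˣ} {θ : K ≃ₐ[k] K}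

theorem exists_eps (h : Module.finrank k L = 2) :
    ∃ ε : (K ≃ₐ[k] K) →* ℤˣ, ∀ σ, ε σ = 1 ↔ Fx (L : Set K) σ := by
  have : Algebra.IsQuadraticExtension k L := { finrank_eq_two' := h }
  have := Fact.mk Nat.prime_two
  let f : (L ≃ₐ[k] L) ≃* ℤˣ := mulEquivOfPrimeCardEq (p := 2)
    (by rw [IsGalois.card_aut_eq_finrank, h]) (by simp)
  exact ⟨f.toMonoidHom.comp (AlgEquiv.restrictNormalHom L), fun σ => by
    rw [P011UCX.fx_iff]
    exact f.map_eq_one_iff⟩

omit [IsSepClosure k K] in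
theorem cj_of (hε : ∀ σ, ε σ = 1 ↔ Fx (L : Set K) σ) (hθ : ε θ = -1) {x : K} (hx : x ∈ L) :
    Cj ε x (θ x) := by
  have f : ∀ σ, ε σ = 1 → σ x = x := fun σ r => (hε σ).1 r x hx
  have g : ∀ σ, ε σ = -1 → σ x = θ x := fun σ r => by
    simpa using congrArg θ (f (θ⁻¹ * σ) (by simp [r, hθ]))
  exact fun σ => ⟨fun r => ⟨f σ r, g (σ * θ) (by simp [r, hθ])⟩,
    fun r => ⟨g σ r, f (σ * θ) (by simp [r, hθ])⟩⟩

/-- Without real places, hermitian forms in three variables are isotropic. -/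
theorem h3 (hk : Glob k) (hn : NoR k) (h : Module.finrank k L = 2)
    (hε : ∀ σ, ε σ = 1 ↔ Fx (L : Set K) σ) (hθ : ε θ = -1) : H3 ε := fun c c' a a' => by
  have : Algebra.IsQuadraticExtension k L := { finrank_eq_two' := h }
  have z : Cj ε (0 : K) 0 := .of map_zero
  by_cases c0 : c = 0
  · exact ⟨0, 0, 1, 1, 0, 0, z, .one, z, by simp, by simp [c0]⟩
  by_cases c1 : c' = 0
  · exact ⟨0, 0, 0, 0, 1, 1, z, z, .one, by simp, by simp [c1]⟩
  obtain ⟨t, rfl⟩ := (InfiniteGalois.mem_range_algebraMap_iff_fixed _).2 a'.fix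
  obtain ⟨s, rfl⟩ := (InfiniteGalois.mem_range_algebraMap_iff_fixed _).2 a.fix
  obtain ⟨m, h1, h2, h3⟩ := P011UY.ari k K 2 L θ 2
    (GeneralLinearGroup.mkOfDetNeZero !![0, -algebraMap k K s; 1, 0] (by simpa using c0))
    Nat.prime_two h inferInstance (fun e => absurd (hθ.symm.trans ((hε θ).2 e)) (by decide))
    (fun i j => by
      fin_cases i <;> fin_cases j
      exacts [zero_mem L, neg_mem (L.algebraMap_mem s), one_mem L, zero_mem L]) hk hn rfl
    ⟨-algebraMap k K s, by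
      ext i j
      fin_cases i <;> fin_cases j <;> simp [nm, mul_apply, GeneralLinearGroup.mkOfDetNeZero]⟩ t
    (fun e => c1 (by rw [e, map_zero]))
  have e1 := congrFun (congrFun h2 0) 0
  have e2 := congrFun (congrFun h2 1) 0
  simp [mul_apply, GeneralLinearGroup.mkOfDetNeZero] at e1 e2
  rw [det_fin_two, ← e1, ← e2] at h3
  exact ⟨_, _, _, _, 1, 1, cj_of hε hθ (h1 0 0), cj_of hε hθ (h1 1 0), .one, by simp,
    by linear_combination -h3⟩

theorem not_ani {D : Chev} (hD : SC D) {T : Tw k (D.grp K)} {i : Fin D.R.r}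
    (h : Sp T.a ((GG D K).h i)) {u v : Kˣ} (ne : u ≠ v) : ¬T.Ani := fun ha => by
  obtain ⟨w, hw⟩ := h
  have y := ha w.1 (D.μ i) (fun t => w * (GG D K).h i t * w⁻¹) (fun t => by
    have : (w * (GG D K).h i t * w⁻¹).1 * w.1 = w.1 * dgU (D.μ i) t := by simp [GG_h]
    exact congrArg Units.val this) hw
  have z : ∀ t : Kˣ, t = 1 := fun t => by
    have : GG_ok.hT (Pi.mulSingle i t) = GG_ok (D := D).hT 1 := Subtype.ext (Units.ext (by
      rw [GG_ok.hT_single, map_one, GG_h, y]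
      simp [dgU]))
    simpa using congrFun (hD.hT_inj this) i
  exact ne ((z u).trans (z v).symm)

/-- OP6. -/
theorem op6 : OP6 := by
  intro k K _ _ _ _ D hk hD T hn e he L θ h2 _ ⟨h0, h1, h⟩
  have hR := Chev.R_ok D
  have : FiniteDimensional k L := Module.finite_of_finrank_pos (by omega)
  obtain ⟨ε, hε⟩ := exists_eps h2
  have hθ : ε θ = -1 := (Int.units_eq_one_or _).resolve_left fun e => h0 ((hε θ).1 e)
  obtain ⟨u, v, g, ne⟩ := ex_gen ⟨θ, hθ⟩ L fun σ s =>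
    (hε σ).2 ((IntermediateField.mem_fixingSubgroup_iff _ _).1 s)
  obtain ⟨hE, t, β, hβ, hb, hj, hp⟩ := e6 hR he
  obtain ⟨i, q⟩ := sp_perp GG_ok hR hE hβ hb hj hp hθ (fun σ r => h1 σ ((hε σ).1 r)) h
    (P011UQ.tw_fix T) (h3 hk hn h2 hε hθ) g ne
  have u0 : u ≠ 0 := fun e => g.symm.ne ⟨θ, hθ⟩ (fun e' => ne (e.trans e'.symm)) e
  exact not_ani hD q (u := .mk0 u u0) (v := .mk0 v (g.ne ⟨θ, hθ⟩ u0))
    fun e => ne (congrArg Units.val e)

end Vale.Agent.P011UB6
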